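import Vale.Agent.P174.Indicable.Main

/-!
Solvability of nonsingular systems is inherited from the finitely generated non-indicable subgroups.
-/

namespace Vale.Agent.Results.P174.IndicableClosure

open Vale.Agent.P174.Indicable

theorem result :
    (∀ (G : Type) [Group G],
      (∀ K : Subgroup G, K.FG → (∀ ψ : K →* Multiplicative ℤ, ψ = 1) → SystemsSolvable K) →
      SystemsSolvable G) ∧
    (∀ (G : Type) [Group G],
      (∀ K : Subgroup G, K.FG → (∀ ψ : K →* Multiplicative ℤ, ψ = 1) →
        ∀ a b : K, a * b = b * a) →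
      SystemsSolvable G) ∧
    (∀ (G : Type) [Group G] (N : Subgroup G) [N.Normal],
      (∀ a ∈ N, ∀ b ∈ N, a * b = b * a) →
      (∀ K : Subgroup (G ⧸ N), K.FG → (∀ ψ : K →* Multiplicative ℤ, ψ = 1) → K = ⊥) →
      SystemsSolvable G) :=
  ⟨fun _ _ h => systemsSolvable_of_indicable h,
    fun _ _ h => systemsSolvable_of_indicable fun K hK hψ => systemsSolvable_of_comm (h K hK hψ),
    fun _ _ N _ hN hQ => systemsSolvable_of_abelian_kernel N hN hQ⟩

end Vale.Agent.Results.P174.IndicableClosure
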