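import Vale.Agent.P174.Main

/-!
Equations over an arbitrary group with triangular extremal pivots in a left-ordered group.
-/

namespace Vale.Agent.Results.P174.TriangularPivots

open Vale.Agent.P174

theorem result :
    (∀ (G Q : Type) [Group G] [Group Q] [LinearOrder Q] (n m : ℕ),
      (∀ a b c : Q, a ≤ b → c * a ≤ c * b) →
      ∀ (q : Fin n → Q) (pre post : Fin m → List (Letter G (Fin n)))
        (piv : Fin m → Fin n × Bool),
      (∀ i l, (piv i).1 = (piv l).1 → i = l) →
      (∀ l, wshift q (pre l ++ Sum.inr (piv l) :: post l) = 1) →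
      (∀ i l, ∀ R s, (Sum.inr (((piv i).1, R), s) : Letter G (Fin n × Q)) ∈
          keys q 1 (pre l) ++ keys q (wshift q (pre l) * sval q (piv l)) (post l) →
        R < pos q (wshift q (pre l)) (piv l) ∨
          (R = pos q (wshift q (pre l)) (piv l) ∧ i < l)) →
      ∃ (H : Type) (_ : Group H) (ι : G →* H) (h : Fin n → H),
        Function.Injective ι ∧
          ∀ l, wval ι h (pre l ++ Sum.inr (piv l) :: post l) = 1) ∧
    (∀ (G : Type) [Group G] (a b c d e : G),
      ∃ (H : Type) (_ : Group H) (ι : G →* H) (x y : H),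
        Function.Injective ι ∧ ι a * x * ι b * y * ι c * x * ι d * y⁻¹ * ι e * y⁻¹ = 1) := by
  refine ⟨fun G Q _ _ _ n m hmul q pre post piv hinj hone hext =>
    solvable_of_pivots hmul q pre post piv hinj hone hext, ?_⟩
  intro G _ a b c d e
  obtain ⟨H, hH, ι, h, hι, hw⟩ := solvable_of_pivots (G := G) (Q := Multiplicative ℤ)
    (m := 1) (fun p r s (hpr : p ≤ r) => mul_le_mul_right hpr s)
    (![Multiplicative.ofAdd 1, Multiplicative.ofAdd 2])
    (fun _ => [Sum.inl a, Sum.inr (0, true), Sum.inl b, Sum.inr (1, true), Sum.inl c])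
    (fun _ => [Sum.inl d, Sum.inr (1, false), Sum.inl e, Sum.inr (1, false)])
    (fun _ => (0, true))
    (fun i l _ => Subsingleton.elim i l)
    (fun _ => by simp [wshift, shift, sval]; decide)
    (fun i l R s hR => by
      simp [keys, sval] at hR
      left
      rcases hR with ⟨rfl, -⟩
      simp [wshift, shift, sval, pos]
      decide)
  refine ⟨H, hH, ι, h 0, h 1, hι, ?_⟩
  simpa [wval, lval, sval, mul_assoc] using hw 0

end Vale.Agent.Results.P174.TriangularPivots
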